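import Vale.Agent.P038.BiHole.Game
import Vale.Agent.P038.BiHole.Witness
import Vale.Agent.P038.BiHole.Sample

/-!
The approximate second neighbourhood conjecture for oriented graphs without linear bi-holes.
-/

namespace Vale.Agent.Results.P038.BiHoleFree

open Finset Real Vale.Agent.P038.BiHole

theorem result :
    ∀ ε : ℝ, 0 < ε → ∃ δ : ℝ, ∃ n₀ : ℕ, 0 < δ ∧
      ∀ (V : Type) [Fintype V] [DecidableEq V] (D : V → V → Prop) [DecidableRel D],
        n₀ ≤ Fintype.card V → (∀ u w, D u w → ¬ D w u) →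
        (∀ X Y : Finset V, Disjoint X Y → δ * Fintype.card V ≤ X.card →
          δ * Fintype.card V ≤ Y.card → ∃ x ∈ X, ∃ y ∈ Y, D x y ∨ D y x) →
        ∃ v, ((univ.filter fun u => D v u).card : ℝ) ≤
          (univ.filter fun w => w ≠ v ∧ ¬ D v w ∧ ∃ u, D v u ∧ D u w).card +
            ε * Fintype.card V := by
  intro ε hε
  set e := min ε 1 with hedef
  have he : 0 < e := lt_min hε one_pos
  have he1 : e ≤ 1 := min_le_right _ _
  obtain ⟨s, hs, hs2⟩ : ∃ s : ℕ, 4096 / e ^ 4 ≤ (s : ℝ) ∧ 2 ≤ s :=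
    ⟨⌈4096 / e ^ 4⌉₊ + 2, by push_cast; linarith [Nat.le_ceil (4096 / e ^ 4)], by omega⟩
  have hsR : (2 : ℝ) ≤ s := by exact_mod_cast hs2
  refine ⟨1 / (16 * (s : ℝ) ^ 6), 4 * s ^ 2 + 1, by positivity, ?_⟩
  intro V _ _ D _ hn anti hole
  classical
  haveI : Nonempty V := Fintype.card_pos_iff.1 (by omega)
  set n := (Fintype.card V : ℝ) with hndef
  have hnn : 4 * (s : ℝ) ^ 2 ≤ n := by
    rw [hndef]; exact_mod_cast (show 4 * s ^ 2 ≤ Fintype.card V by omega)
  have hn0 : 0 < n := lt_of_lt_of_le (by positivity) hnn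
  set N := n ^ s with hNdef
  have hN : 0 < N := by positivity
  -- the weight of a vertex towards another one
  let g : V → V → ℝ := fun a x => (if x ≠ a ∧ ¬ D a x ∧ ∃ u, D a u ∧ D u x then 1 else 0) -
    (if D a x then 1 else 0)
  let μ : V → ℝ := fun a => (∑ x, g a x) / n
  set lam := e / 4 with hlam
  set c := e * s / 2 - 1 with hc
  -- collisions
  let A : Finset (Fin s → V) := univ.filter fun f => ¬ Function.Injective f
  let B : Finset (Fin s → V) := univ.filter fun f => ∃ i j k, i ≠ j ∧ i ≠ k ∧ j ≠ k ∧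
    (f i, f j, f k) ∈ badTriples D
  let C : Finset (Fin s → V) := univ.filter fun f => ∃ i,
    c ≤ ∑ j, g (f i) (f j) - ((s : ℝ) - 1) * μ (f i)
  have hA : (A.card : ℝ) ≤ N / 4 := by
    let I := (univ : Finset (Fin s × Fin s)).filter fun q => q.1 ≠ q.2
    let F : (Fin s × Fin s) × V → Finset (Fin s → V) := fun q =>
      univ.filter fun f => ∀ i ∈ ({q.1.1, q.1.2} : Finset (Fin s)), f i = q.2
    have hsub : A ⊆ (I ×ˢ (univ : Finset V)).biUnion F := by
      intro f hf
      obtain ⟨-, hf⟩ := mem_filter.1 hf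
      obtain ⟨i, j, hij, hne⟩ := Function.not_injective_iff.1 hf
      exact mem_biUnion.2 ⟨((i, j), f i), by simp [I, hne], by simp [F, hij]⟩
    have h1 : (A.card : ℝ) ≤ ∑ q ∈ I ×ˢ (univ : Finset V), ((F q).card : ℝ) := by
      exact_mod_cast (card_le_card hsub).trans card_biUnion_le
    have h2 : ∀ q ∈ I ×ˢ (univ : Finset V), ((F q).card : ℝ) = N / n ^ 2 := by
      intro q hq
      simp only [I, mem_product, mem_filter, mem_univ, true_and, and_true] at hq
      rw [eq_div_iff (by positivity)]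
      have := card_fixed ({q.1.1, q.1.2} : Finset (Fin s)) (fun _ => q.2)
      rwa [card_pair hq] at this
    rw [sum_congr rfl h2, sum_const, card_product, nsmul_eq_mul, card_univ] at h1
    push_cast at h1
    have h3 : (I.card : ℝ) ≤ (s : ℝ) ^ 2 := by
      have : I.card ≤ Fintype.card (Fin s × Fin s) := card_le_univ I
      simp only [Fintype.card_prod, Fintype.card_fin] at this
      rw [sq]; exact_mod_cast this
    refine h1.trans ?_
    rw [← hndef, show (I.card : ℝ) * n * (N / n ^ 2) = I.card * N / n by field_simp,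
      div_le_div_iff₀ hn0 four_pos]
    nlinarith
  have hB : (B.card : ℝ) ≤ N / 4 := by
    let I := (univ : Finset (Fin s × Fin s × Fin s)).filter fun q =>
      q.1 ≠ q.2.1 ∧ q.1 ≠ q.2.2 ∧ q.2.1 ≠ q.2.2
    let F : (Fin s × Fin s × Fin s) × (V × V × V) → Finset (Fin s → V) := fun q =>
      univ.filter fun f => ∀ i ∈ ({q.1.1, q.1.2.1, q.1.2.2} : Finset (Fin s)),
        f i = if i = q.1.1 then q.2.1 else if i = q.1.2.1 then q.2.2.1 else q.2.2.2
    have hsub : B ⊆ (I ×ˢ badTriples D).biUnion F := by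
      intro f hf
      simp only [B, mem_filter, mem_univ, true_and] at hf
      obtain ⟨i, j, k, hij, hik, hjk, hb⟩ := hf
      exact mem_biUnion.2 ⟨((i, j, k), (f i, f j, f k)), by simp [I, hij, hik, hjk, hb],
        by simp [F, hij.symm, hik.symm, hjk.symm]⟩
    have h1 : (B.card : ℝ) ≤ ∑ q ∈ I ×ˢ badTriples D, ((F q).card : ℝ) := by
      exact_mod_cast (card_le_card hsub).trans card_biUnion_le
    have h2 : ∀ q ∈ I ×ˢ badTriples D, ((F q).card : ℝ) = N / n ^ 3 := by
      intro q hq
      simp only [I, mem_product, mem_filter, mem_univ, true_and] at hq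
      obtain ⟨⟨a1, a2, a3⟩, -⟩ := hq
      rw [eq_div_iff (by positivity)]
      have := card_fixed ({q.1.1, q.1.2.1, q.1.2.2} : Finset (Fin s))
        (fun i => if i = q.1.1 then q.2.1 else if i = q.1.2.1 then q.2.2.1 else q.2.2.2)
      rwa [card_eq_three.2 ⟨_, _, _, a1, a2, a3, rfl⟩] at this
    rw [sum_congr rfl h2, sum_const, card_product, nsmul_eq_mul] at h1
    push_cast at h1
    have h3 : (I.card : ℝ) ≤ (s : ℝ) ^ 3 := by
      have : I.card ≤ Fintype.card (Fin s × Fin s × Fin s) := card_le_univ I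
      simp only [Fintype.card_prod, Fintype.card_fin] at this
      rw [pow_three]; exact_mod_cast this
    have h4 : ((badTriples D).card : ℝ) ≤ n ^ 3 / (4 * (s : ℝ) ^ 3) := by
      refine le_of_pow_le_pow_left₀ two_ne_zero (by positivity)
        ((badTriples_sq D _ (by positivity) hole).trans (le_of_eq ?_))
      rw [← hndef]; field_simp; ring
    refine h1.trans ?_
    calc (I.card : ℝ) * (badTriples D).card * (N / n ^ 3)
        ≤ (s : ℝ) ^ 3 * (n ^ 3 / (4 * (s : ℝ) ^ 3)) * (N / n ^ 3) := by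
          refine mul_le_mul_of_nonneg_right ?_ (by positivity)
          exact mul_le_mul h3 h4 (Nat.cast_nonneg _) (by positivity)
      _ = N / 4 := by field_simp
  have hC : (C.card : ℝ) ≤ N / 4 := by
    let F : Fin s × V → Finset (Fin s → V) := fun q => univ.filter fun f => f q.1 = q.2 ∧
      c ≤ ∑ j, g q.2 (f j) - ((s : ℝ) - 1) * ((∑ x, g q.2 x) / Fintype.card V)
    have hsub : C ⊆ (univ : Finset (Fin s × V)).biUnion F := by
      intro f hf
      simp only [C, mem_filter, mem_univ, true_and] at hf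
      obtain ⟨i, hi⟩ := hf
      exact mem_biUnion.2 ⟨(i, f i), mem_univ _, by simpa [F, μ, hndef] using hi⟩
    have h1 : (C.card : ℝ) ≤ ∑ q : Fin s × V, ((F q).card : ℝ) := by
      exact_mod_cast (card_le_card hsub).trans card_biUnion_le
    have h2 : ∀ q : Fin s × V, ((F q).card : ℝ) * exp (lam * c) ≤
        n ^ (s - 1) * exp (((s - 1 : ℕ) : ℝ) * lam ^ 2) := by
      intro q
      refine deviation q.1 q.2 (g q.2) (fun x => ?_) ?_ lam c (by positivity) (by linarith)
      · simp only [g]; split_ifs <;> norm_num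
      · have hirr : ¬ D q.2 q.2 := fun h => anti _ _ h h
        simp [g, hirr]
    have h3 : (C.card : ℝ) * exp (lam * c) ≤ s * N * exp ((s : ℝ) * lam ^ 2) := by
      refine (mul_le_mul_of_nonneg_right h1 (exp_pos _).le).trans ?_
      rw [sum_mul]
      refine (sum_le_sum fun q _ => h2 q).trans ?_
      rw [sum_const, card_univ, Fintype.card_prod, Fintype.card_fin, nsmul_eq_mul]
      push_cast
      rw [← hndef, hNdef, show (s : ℝ) * n * (n ^ (s - 1) * exp (((s - 1 : ℕ) : ℝ) * lam ^ 2)) =
        s * (n * n ^ (s - 1)) * exp (((s - 1 : ℕ) : ℝ) * lam ^ 2) by ring, ← pow_succ',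
        show s - 1 + 1 = s by omega]
      refine mul_le_mul_of_nonneg_left (exp_le_exp.2 ?_) (by positivity)
      exact mul_le_mul_of_nonneg_right (by exact_mod_cast Nat.sub_le s 1) (sq_nonneg _)
    set x := e ^ 2 * s / 16 with hx
    have hx0 : 0 < x := by positivity
    have h4 : (s : ℝ) * lam ^ 2 - lam * c = e / 4 - x := by
      rw [hx, hlam, hc]; ring
    have h5 : exp (e / 4 - x) ≤ 4 / x ^ 2 := by
      rw [exp_sub]
      have a : exp (e / 4) ≤ 2 := by
        refine (exp_small (x := e / 4) (by rw [abs_of_pos (by positivity)]; linarith)).trans ?_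
        nlinarith
      have b : x ^ 2 / 2 ≤ exp x := by
        have := quadratic_le_exp_of_nonneg hx0.le
        linarith
      calc exp (e / 4) / exp x ≤ 2 / (x ^ 2 / 2) := div_le_div₀ zero_le_two a (by positivity) b
        _ = 4 / x ^ 2 := by ring
    have h6 : (s : ℝ) * (4 / x ^ 2) ≤ 1 / 4 := by
      have := (div_le_iff₀ (by positivity)).1 hs
      rw [hx, show (s : ℝ) * (4 / (e ^ 2 * s / 16) ^ 2) = 1024 / (s * e ^ 4) by field_simp; ring,
        div_le_iff₀ (by positivity)]
      linarith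
    calc (C.card : ℝ) = C.card * exp (lam * c) * exp (-(lam * c)) := by
          rw [mul_assoc, ← exp_add, add_neg_cancel, exp_zero, mul_one]
      _ ≤ s * N * exp ((s : ℝ) * lam ^ 2) * exp (-(lam * c)) :=
          mul_le_mul_of_nonneg_right h3 (exp_pos _).le
      _ = s * exp (e / 4 - x) * N := by rw [← h4, mul_assoc, ← exp_add, ← sub_eq_add_neg]; ring
      _ ≤ s * (4 / x ^ 2) * N := by gcongr
      _ ≤ 1 / 4 * N := by gcongr
      _ = N / 4 := by ring
  -- a map avoiding all three
  obtain ⟨f, hfA, hfB, hfC⟩ : ∃ f, f ∉ A ∧ f ∉ B ∧ f ∉ C := by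
    by_contra hall
    push Not at hall
    have hu : (univ : Finset (Fin s → V)) ⊆ A ∪ B ∪ C := fun f _ => by
      simp only [mem_union]
      by_cases a : f ∈ A
      · exact Or.inl (Or.inl a)
      · by_cases b : f ∈ B
        · exact Or.inl (Or.inr b)
        · exact Or.inr (hall f a b)
    have := (card_le_card hu).trans ((card_union_le _ _).trans
      (add_le_add (card_union_le _ _) le_rfl))
    rw [card_univ, Fintype.card_fun, Fintype.card_fin] at this
    have h' : N ≤ (A.card : ℝ) + B.card + C.card := by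
      rw [hNdef, hndef]; exact_mod_cast this
    linarith
  simp only [A, mem_filter, mem_univ, true_and, not_not] at hfA
  simp only [B, mem_filter, mem_univ, true_and, not_exists, not_and] at hfB
  simp only [C, mem_filter, mem_univ, true_and, not_exists, not_le] at hfC
  let S : Finset V := univ.image f
  have hSne : S.Nonempty := ⟨f ⟨0, by omega⟩, mem_image_of_mem _ (mem_univ _)⟩
  obtain ⟨y, hy, hgood⟩ := good_in_set D S hSne (pay D) (pay_skew D anti) (pay_le D) (Far D)
    (fun r z h => pay_arc D h) (fun z hz r hr y hy hrz hyz => by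
      by_contra hne
      obtain ⟨i, -, rfl⟩ := mem_image.1 hz
      obtain ⟨j, -, rfl⟩ := mem_image.1 hr
      obtain ⟨k, -, rfl⟩ := mem_image.1 hy
      refine hfB i j k (fun h => ?_) (fun h => ?_) (fun h => ?_) ?_
      · subst h; exact anti _ _ hrz hrz
      · exact hyz.1 (by rw [h])
      · subst h; exact hyz.2.1 hrz
      · simp [badTriples, hrz, hyz, hne])
    (fun y z h => ⟨h.1, h.2.1⟩)
  obtain ⟨i, -, rfl⟩ := mem_image.1 hy
  set a := f i with ha
  have tr : ∀ P : V → Prop, [DecidablePred P] → ((S.filter P).card : ℝ) =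
      ∑ j, if P (f j) then (1 : ℝ) else 0 := fun P _ => by
    rw [filter_image, card_image_of_injective _ hfA, sum_boole]
  have hsamp : -1 ≤ ∑ j, g a (f j) := by
    have h1 : ((S.filter fun z => D a z).card : ℝ) ≤
        (S.filter fun z => z ≠ a ∧ ¬ D a z ∧ ∃ u, D a u ∧ D u z).card + 1 := by
      refine (Nat.cast_le.2 (hgood.trans (Nat.add_le_add_right (card_le_card ?_) 1))).trans
        (le_of_eq (by push_cast; rfl))
      intro z hz
      simp only [mem_filter, Far, not_and, not_forall, not_not] at hz ⊢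
      obtain ⟨hzS, h1, h2, h3⟩ := hz
      obtain ⟨u, hu, hu'⟩ := h3 h1 h2
      exact ⟨hzS, h1.symm, h2, u, hu, hu'⟩
    rw [tr (fun z => D a z), tr (fun z => z ≠ a ∧ ¬ D a z ∧ ∃ u, D a u ∧ D u z)] at h1
    simp only [g, sum_sub_distrib]
    linarith
  have hμ : -e ≤ μ a := by
    have h := hfC i
    rw [← ha, hc] at h
    by_contra hlt
    push Not at hlt
    have := mul_lt_mul_of_pos_left hlt (show 0 < (s : ℝ) - 1 by linarith)
    have := mul_le_mul_of_nonneg_right hsR he.le
    linarith
  refine ⟨a, ?_⟩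
  have hsum : ∑ x, g a x = n * μ a := (mul_div_cancel₀ _ hn0.ne').symm
  simp only [g, sum_sub_distrib, sum_boole] at hsum
  have h1 := mul_le_mul_of_nonneg_left hμ hn0.le
  have h2 := mul_le_mul_of_nonneg_left (min_le_left ε 1 : e ≤ ε) hn0.le
  linarith

end Vale.Agent.Results.P038.BiHoleFree
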