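import Mathlib

namespace Vale.Agent.Results.P038.CliqueFreeRatio

open Finset

variable {V : Type} [Fintype V] [DecidableEq V]

/-- the out-neighbours of a vertex -/
def outNbrs (D : V → V → Prop) [DecidableRel D] (v : V) : Finset V :=
  univ.filter (fun u => D v u)

/-- the vertices at directed distance exactly two -/
def secondNbrs (D : V → V → Prop) [DecidableRel D] (v : V) : Finset V :=
  univ.filter (fun w => w ≠ v ∧ ¬ D v w ∧ ∃ u, D v u ∧ D u w)

lemma sum_out_eq_card_edges {W : Type} [Fintype W] [DecidableEq W] (R : W → W → Prop)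
    [DecidableRel R] (anti : ∀ u w, R u w → ¬ R w u) (G : SimpleGraph W) [DecidableRel G.Adj]
    (hG : ∀ u w, G.Adj u w ↔ R u w ∨ R w u) :
    2 * ∑ a, (univ.filter (fun b => R a b)).card = 2 * G.edgeFinset.card := by
  rw [← G.sum_degrees_eq_twice_card_edges]
  have hdeg : ∀ a, G.degree a
      = (univ.filter (fun b => R a b)).card + (univ.filter (fun b => R b a)).card := by
    intro a
    rw [← card_union_of_disjoint]
    · rw [← SimpleGraph.card_neighborFinset_eq_degree]
      congr 1
      ext b
      simp [hG]
    · rw [disjoint_filter]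
      intro b _ h1 h2
      exact anti a b h1 h2
  simp only [hdeg, sum_add_distrib]
  have : ∑ a, (univ.filter (fun b => R b a)).card = ∑ a, (univ.filter (fun b => R a b)).card := by
    simp only [card_filter]
    exact sum_comm
  omega

theorem result :
    ∀ (r : ℕ), 2 ≤ r → ∀ (V : Type) [Fintype V] [DecidableEq V] [Nonempty V]
      (D : V → V → Prop) [DecidableRel D],
      (∀ u w, D u w → ¬ D w u) → (SimpleGraph.fromRel D).CliqueFree (r + 1) →
      ∃ v, r * (outNbrs D v).card ≤ 2 * (r - 1) * (secondNbrs D v).card := by
  classical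
  intro r hr V _ _ _ D _ anti free
  obtain ⟨v, -, hv⟩ := exists_min_image (univ : Finset V) (fun x => (outNbrs D x).card)
    univ_nonempty
  refine ⟨v, ?_⟩
  rcases Nat.eq_zero_or_pos (outNbrs D v).card with h0 | hpos
  · simp [h0]
  set A := outNbrs D v with hA
  let R : A → A → Prop := fun a b => D a.1 b.1
  let G : SimpleGraph A := (SimpleGraph.fromRel D).comap Subtype.val
  have hG : ∀ a b, G.Adj a b ↔ R a b ∨ R b a := by
    intro a b
    simp only [G, R, SimpleGraph.comap_adj, SimpleGraph.fromRel_adj]
    constructor
    · exact fun h => h.2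
    · intro h
      refine ⟨fun he => ?_, h⟩
      rw [he] at h
      exact anti _ _ (h.elim id id) (h.elim id id)
  have hfree : G.CliqueFree ((r - 1) + 1) := by
    intro s hs
    have hvA : ∀ a : A, D v a.1 := fun a => by
      have := a.2
      simp [A, outNbrs] at this
      exact this
    have hne : ∀ a : A, v ≠ a.1 := fun a he =>
      anti v v (by simpa [← he] using hvA a) (by simpa [← he] using hvA a)
    apply free (insert v (s.map (Function.Embedding.subtype _)))
    rw [SimpleGraph.isNClique_iff] at hs ⊢
    refine ⟨?_, ?_⟩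
    · intro x hx y hy hxy
      simp only [coe_insert, coe_map, Set.mem_insert_iff, Set.mem_image, mem_coe] at hx hy
      rcases hx with rfl | ⟨a, ha, rfl⟩ <;> rcases hy with rfl | ⟨b, hb, rfl⟩
      · exact absurd rfl hxy
      · exact ⟨hxy, Or.inl (hvA b)⟩
      · exact ⟨hxy, Or.inr (hvA a)⟩
      · exact hs.1 ha hb (fun h => hxy (by rw [h]))
    · rw [card_insert_of_notMem, card_map, hs.2]
      · omega
      · simp only [mem_map, Function.Embedding.coe_subtype, not_exists, not_and]
        exact fun a _ he => hne a he.symm
  have e1 : 2 * (r - 1) * G.edgeFinset.card ≤ (r - 1 - 1) * A.card ^ 2 := by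
    have := SimpleGraph.CliqueFree.card_edgeFinset_le hfree
    have h2 := SimpleGraph.mul_card_edgeFinset_turanGraph_le (n := A.card) (r := r - 1)
    simp only [Fintype.card_coe] at this
    have h3 : G.edgeFinset.card ≤ (SimpleGraph.turanGraph A.card (r - 1)).edgeFinset.card := by
      rw [SimpleGraph.card_edgeFinset_turanGraph]
      exact this
    exact le_trans (Nat.mul_le_mul_left _ h3) h2
  have e2 := sum_out_eq_card_edges R (fun a b => anti a.1 b.1) G hG
  have e3 : ∃ a : A, 2 * (r - 1) * (univ.filter (fun b => R a b)).card ≤ (r - 2) * A.card := by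
    by_contra hc
    push Not at hc
    have hne : (univ : Finset A).Nonempty := by
      rw [univ_eq_attach, attach_nonempty_iff, ← card_pos]
      exact hpos
    have hlt := sum_lt_sum_of_nonempty hne (fun a _ => hc a)
    rw [sum_const, card_univ, Fintype.card_coe, smul_eq_mul, ← mul_sum] at hlt
    have : (r - 1 - 1) * A.card ^ 2 = A.card * ((r - 2) * A.card) := by
      rw [show r - 1 - 1 = r - 2 by omega]
      ring
    have hs : ∑ a, (univ.filter (fun b => R a b)).card = G.edgeFinset.card := by omega
    rw [hs] at hlt
    omega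
  obtain ⟨a, ha⟩ := e3
  have hav : D v a.1 := by
    have := a.2
    simp [A, outNbrs] at this
    exact this
  have hsub : outNbrs D a.1 ⊆ secondNbrs D v ∪ (univ.filter (fun b => R a b)).map
      (Function.Embedding.subtype _) := by
    intro w hw
    simp only [outNbrs, mem_filter, mem_univ, true_and] at hw
    by_cases hwA : D v w
    · refine mem_union_right _ (mem_map.mpr ⟨⟨w, by simp [A, outNbrs, hwA]⟩, ?_, rfl⟩)
      simp [R, hw]
    · refine mem_union_left _ ?_
      simp only [secondNbrs, mem_filter, mem_univ, true_and]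
      exact ⟨fun he => anti _ _ hav (he ▸ hw), hwA, a.1, hav, hw⟩
  have hc := le_trans (hv a.1 (mem_univ _)) (le_trans (card_le_card hsub) (card_union_le _ _))
  rw [card_map] at hc
  have hmul := Nat.mul_le_mul_left (2 * (r - 1)) hc
  rw [Nat.mul_add] at hmul
  have : 2 * (r - 1) * A.card = r * A.card + (r - 2) * A.card := by
    rw [← add_mul]
    congr 1
    omega
  omega

end Vale.Agent.Results.P038.CliqueFreeRatio
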