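import Vale.Agent.P038.LastVertex

/-!
Second neighbourhoods in orientations of dense quasi-random graphs of every density below one.
-/

namespace Vale.Agent.Results.P038.QuasiRandomOrientations

open Finset Vale.Agent.P038

variable {V : Type} [Fintype V] [DecidableEq V] {D : V → V → Prop} [DecidableRel D] {pos : V → ℕ}

/-- If no vertex of `L` has backward arcs to second neighbours, the forced backward arcs are few. -/
lemma few_forced (anti : ∀ u w, D u w → ¬ D w u) (L : Finset V) (p η δ θ s : ℝ)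
    (hp : 0 < p) (hp1 : p < 1) (hη : 0 ≤ η) (hδ : 0 < δ) (hθ : 0 < θ) (hs : 0 ≤ s)
    (hL : L.Nonempty)
    (hq : ∀ X Y : Finset V, |(((X ×ˢ Y).filter fun q => D q.1 q.2 ∨ D q.2 q.1).card : ℝ)
      - p * (X.card * Y.card)| ≤ η * (Fintype.card V : ℝ) ^ 2)
    (hslack : ∀ v ∈ L, ((slackPairs D pos v).card : ℝ) ≤ s) :
    ∑ v ∈ L, ((mPairs D pos v).card : ℝ) ≤ (δ + θ) * L.card * (Fintype.card V : ℝ) ^ 2
      + L.card * ((2 * Fintype.card V * (L.card * s + η * (Fintype.card V : ℝ) ^ 3) /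
          ((1 - p) * δ * L.card) + η * (Fintype.card V : ℝ) ^ 3) / p / (θ * Fintype.card V)) := by
  classical
  set n := Fintype.card V
  have hn : (0 : ℝ) < n := by
    obtain ⟨v, -⟩ := hL
    exact_mod_cast Fintype.card_pos_iff.2 ⟨v⟩
  have hl : (0 : ℝ) < L.card := by exact_mod_cast hL.card_pos
  let cnt : V → V → Finset V := fun w u => L.filter fun v => (u, w) ∈ mPairs D pos v
  let sl : V → V → Finset V := fun w u => L.filter fun v => (u, w) ∈ slackPairs D pos v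
  let S : V → Finset V := fun w => univ.filter fun u => δ * L.card ≤ (cnt w u).card
  have flip : ∀ f : V → Finset (V × V),
      ∑ v ∈ L, ((f v).card : ℝ) = ∑ w, ∑ u, ((L.filter fun v => (u, w) ∈ f v).card : ℝ) := by
    intro f
    calc ∑ v ∈ L, ((f v).card : ℝ) = ∑ v ∈ L, ∑ q : V × V, (if q ∈ f v then (1 : ℝ) else 0) := by
          refine sum_congr rfl fun v _ => ?_
          rw [sum_boole]
          simp
      _ = ∑ q : V × V, ∑ v ∈ L, (if q ∈ f v then (1 : ℝ) else 0) := sum_comm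
      _ = ∑ q : V × V, ((L.filter fun v => q ∈ f v).card : ℝ) := by simp only [sum_boole]
      _ = _ := by rw [Fintype.sum_prod_type]; exact sum_comm
  -- for each distant vertex
  have perw : ∀ w, p * ((S w).card : ℝ) ^ 2 ≤
      2 * (n * ((∑ u, ((sl w u).card : ℝ)) + η * (n : ℝ) ^ 2)) / ((1 - p) * δ * L.card)
        + η * (n : ℝ) ^ 2 := by
    intro w
    let Y : V → Finset V := fun z => (S w).filter fun u => D z u
    have hwit : ∀ u ∈ S w, (cnt w u).Nonempty := fun u hu => card_pos.1 (by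
      simp only [S, mem_filter, mem_univ, true_and] at hu
      have : (0 : ℝ) < (cnt w u).card := lt_of_lt_of_le (mul_pos hδ hl) hu
      exact_mod_cast this)
    have perz : ∀ z ∈ S w, (1 - p) * δ * L.card * (Y z).card ≤
        (∑ u, ((sl w u).card : ℝ)) + η * (n : ℝ) ^ 2 := by
      intro z hz
      have hz' : δ * L.card ≤ (cnt w z).card := (mem_filter.1 hz).2
      have h1 := (abs_le.1 (hq (cnt w z) (Y z))).2
      have h2 : ((cnt w z ×ˢ Y z).filter fun q => ¬ (D q.1 q.2 ∨ D q.2 q.1)).card ≤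
          ∑ u, (sl w u).card := by
        rw [← card_sigma]
        refine card_le_card_of_injOn (fun q => ⟨q.2, q.1⟩) (fun q hq => ?_)
          fun a _ b _ h => ?_
        · simp only [mem_coe, mem_filter, mem_product] at hq
          obtain ⟨⟨hv, hu⟩, hadj⟩ := hq
          simp only [Y, mem_filter] at hu
          obtain ⟨v', hv'⟩ := hwit q.2 hu.1
          simp only [cnt, mPairs, mem_filter, mem_product, aSet, bSet, mem_univ, true_and] at hv hv'
          obtain ⟨hvL, ⟨⟨_, hvz⟩, hwv, hw1, hw2⟩, hzw, -⟩ := hv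
          obtain ⟨-, -, huw, hwu⟩ := hv'
          simp only [mem_coe, mem_sigma, mem_univ, true_and, sl, slackPairs, mem_filter,
            mem_product, cSet, bSet]
          exact ⟨hvL, ⟨⟨huw.trans hwv, fun h => hadj (Or.inl h), z, hvz, hu.2⟩,
            hwv, hw1, hw2⟩, huw, hwu⟩
        · simp only [Sigma.mk.injEq, heq_eq_eq] at h
          exact Prod.ext h.2 h.1
      have h2' := (Nat.cast_le (α := ℝ)).2 h2
      push_cast at h2'
      have h3 := card_filter_add_card_filter_not (s := cnt w z ×ˢ Y z)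
        (fun q => D q.1 q.2 ∨ D q.2 q.1)
      rw [card_product] at h3
      have h3' := congrArg (Nat.cast (R := ℝ)) h3
      push_cast at h3'
      have h4 : (1 - p) * (δ * L.card) * (Y z).card ≤ (1 - p) * ((cnt w z).card * (Y z).card) := by
        rw [mul_assoc]
        exact mul_le_mul_of_nonneg_left (mul_le_mul_of_nonneg_right hz' (Nat.cast_nonneg _))
          (sub_nonneg.2 hp1.le)
      linarith
    have hnonneg : 0 ≤ (∑ u, ((sl w u).card : ℝ)) + η * (n : ℝ) ^ 2 :=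
      add_nonneg (sum_nonneg fun _ _ => Nat.cast_nonneg _) (by positivity)
    have harcs : (1 - p) * δ * L.card * (((S w ×ˢ S w).filter fun q => D q.1 q.2).card : ℝ) ≤
        n * ((∑ u, ((sl w u).card : ℝ)) + η * (n : ℝ) ^ 2) := by
      have e : ((S w ×ˢ S w).filter fun q => D q.1 q.2).card = ∑ z ∈ S w, (Y z).card := by
        simp only [Y, card_filter]
        rw [sum_product]
      rw [e, Nat.cast_sum, mul_sum]
      refine (sum_le_sum perz).trans ?_
      rw [sum_const, nsmul_eq_mul]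
      exact mul_le_mul_of_nonneg_right (by exact_mod_cast card_le_univ (S w)) hnonneg
    have hsym : ((S w ×ˢ S w).filter fun q => D q.1 q.2 ∨ D q.2 q.1).card =
        2 * ((S w ×ˢ S w).filter fun q => D q.1 q.2).card := by
      rw [filter_or, card_union_of_disjoint (disjoint_filter.2 fun q _ h => anti _ _ h), two_mul]
      congr 1
      refine card_nbij' Prod.swap Prod.swap ?_ ?_ ?_ ?_ <;>
        simp only [Set.MapsTo, Set.LeftInvOn, Set.RightInvOn, mem_coe, mem_filter, mem_product,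
          Prod.fst_swap, Prod.snd_swap, Prod.swap_swap, implies_true] <;> tauto
    have hpos : 0 < (1 - p) * δ * L.card := mul_pos (mul_pos (sub_pos.2 hp1) hδ) hl
    have h5 := (abs_le.1 (hq (S w) (S w))).1
    rw [hsym, Nat.cast_mul, Nat.cast_two] at h5
    have h6 : (((S w ×ˢ S w).filter fun q => D q.1 q.2).card : ℝ) ≤
        n * ((∑ u, ((sl w u).card : ℝ)) + η * (n : ℝ) ^ 2) / ((1 - p) * δ * L.card) := by
      rw [le_div_iff₀ hpos, mul_comm]
      exact harcs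
    rw [mul_div_assoc, sq ((S w).card : ℝ)]
    linarith
  have hS2 : ∑ w, ((S w).card : ℝ) ^ 2 ≤
      (2 * n * (L.card * s + η * (n : ℝ) ^ 3) / ((1 - p) * δ * L.card) + η * (n : ℝ) ^ 3) / p := by
    rw [le_div_iff₀ hp, sum_mul]
    refine (sum_le_sum fun w _ => (mul_comm _ p).trans_le (perw w)).trans ?_
    rw [sum_add_distrib, sum_const, card_univ, nsmul_eq_mul, ← sum_div, ← mul_sum, ← mul_sum,
      sum_add_distrib, sum_const, card_univ, nsmul_eq_mul]
    have hsum : ∑ w, ∑ u, ((sl w u).card : ℝ) ≤ L.card * s := by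
      rw [← flip (slackPairs D pos)]
      refine (sum_le_sum hslack).trans ?_
      rw [sum_const, nsmul_eq_mul]
    have : 0 ≤ (1 - p) * δ * L.card := by
      have := sub_pos.2 hp1
      positivity
    have e2 : (n : ℝ) * (η * (n : ℝ) ^ 2) = η * (n : ℝ) ^ 3 := by ring
    rw [e2, ← mul_assoc 2 (n : ℝ)]
    gcongr
  have hS1 : ∀ w, ((S w).card : ℝ) ≤ ((S w).card : ℝ) ^ 2 / (θ * n) + θ * n := by
    intro w
    rw [← sub_le_iff_le_add, le_div_iff₀ (mul_pos hθ hn)]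
    nlinarith [sq_nonneg (((S w).card : ℝ) - θ * n), (Nat.cast_nonneg _ : (0 : ℝ) ≤ (S w).card),
      mul_pos hθ hn]
  rw [flip (mPairs D pos)]
  have hcell : ∀ w u, ((cnt w u).card : ℝ) ≤
      δ * L.card + L.card * (if u ∈ S w then 1 else 0) := by
    intro w u
    by_cases hu : u ∈ S w
    · rw [if_pos hu, mul_one]
      have : ((cnt w u).card : ℝ) ≤ L.card := by exact_mod_cast card_filter_le _ _
      have := mul_pos hδ hl
      linarith
    · rw [if_neg hu, mul_zero, add_zero]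
      simp only [S, mem_filter, mem_univ, true_and, not_le] at hu
      exact hu.le
  refine (sum_le_sum fun w _ => sum_le_sum fun u _ => hcell w u).trans ?_
  simp only [sum_add_distrib, sum_const, card_univ, nsmul_eq_mul, ← mul_sum, sum_boole]
  have e : ∀ w, ((univ.filter fun u => u ∈ S w).card : ℝ) = (S w).card := fun w => by simp
  simp only [e]
  have h7 := sum_le_sum (s := (univ : Finset V)) fun w _ => hS1 w
  rw [sum_add_distrib, ← sum_div, sum_const, card_univ, nsmul_eq_mul] at h7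
  have h8 := mul_le_mul_of_nonneg_left (h7.trans (add_le_add
    (div_le_div_of_nonneg_right hS2 (mul_pos hθ hn).le) le_rfl)) hl.le
  nlinarith [h8]

/-- The arithmetic behind the forward-pair estimate. -/
lemma tri_arith {n w η e0 : ℝ} (hn : 0 < n) (hw1 : e0 / 8 * n ≤ w) (hw2 : w ≤ 2 * (e0 / 8 * n))
    (he0 : 0 < e0) (hη0 : 0 ≤ η) (hη : η * (8 / e0 + 1) ≤ e0 / 2) :
    (n / w + 1) * η * n ^ 2 + n * w ≤ e0 * n ^ 2 := by
  have hw : 0 < w := lt_of_lt_of_le (by positivity) hw1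
  have h1 : n / w ≤ 8 / e0 := by
    rw [div_le_div_iff₀ hw he0]; linarith
  have h2 : (n / w + 1) * η ≤ e0 / 2 := by
    refine le_trans ?_ hη
    rw [mul_comm η]
    exact mul_le_mul_of_nonneg_right (by linarith) hη0
  have h3 := mul_le_mul_of_nonneg_right h2 (sq_nonneg n)
  have h4 := mul_le_mul_of_nonneg_left hw2 hn.le
  have h5 : 0 ≤ e0 * n ^ 2 := by positivity
  linarith

/-- The arithmetic behind the slack bound. -/
lemma slack_arith {n ℓ p τ : ℝ} (hn : 0 < n) (hp : 0 < p) (hτ : 0 < τ)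
    (hℓ1 : τ / 8 * n ≤ ℓ) (hℓ2 : ℓ ≤ 2 * (τ / 8 * n)) :
    n * (τ / 8 * n + ℓ + ℓ + 2 * (p * (τ / 8) * τ / 8 * n ^ 2) / p / ℓ) ≤ τ * n ^ 2 := by
  have hℓ : 0 < ℓ := lt_of_lt_of_le (by positivity) hℓ1
  have h1 : 2 * (p * (τ / 8) * τ / 8 * n ^ 2) / p / ℓ ≤ τ / 4 * n := by
    rw [div_le_iff₀ hℓ, div_le_iff₀ hp]
    have := mul_le_mul_of_nonneg_left hℓ1 (show 0 ≤ τ / 4 * n * p by positivity)
    linarith
  have h2 : τ / 8 * n + ℓ + ℓ + 2 * (p * (τ / 8) * τ / 8 * n ^ 2) / p / ℓ ≤ τ * n := by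
    have : 0 ≤ τ * n := by positivity
    linarith
  calc _ ≤ n * (τ * n) := mul_le_mul_of_nonneg_left h2 hn.le
    _ = τ * n ^ 2 := by ring

/-- The arithmetic behind the count of forced arcs. -/
lemma forced_arith {n ℓ p q μ δ χ τ lam η : ℝ} (hn : 0 < n) (hp : 0 < p) (hq : 0 < q)
    (hμ : 0 < μ) (hδ : δ = μ / 8) (hχ : χ = μ * δ / 8) (hτ : τ = p * q * δ * χ / 6)
    (hℓ : lam * n ≤ ℓ) (hlam : 0 < lam)
    (hη2 : η ≤ lam * (p * q * δ * χ) / 12) (hη3 : η ≤ p * χ / 3) :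
    (δ + δ) * ℓ * n ^ 2 + ℓ * ((2 * n * (ℓ * (τ * n ^ 2) + η * n ^ 3) / (q * δ * ℓ)
      + η * n ^ 3) / p / (δ * n)) ≤ 3 / 8 * μ * ℓ * n ^ 2 := by
  have hδ0 : 0 < δ := by rw [hδ]; positivity
  have hχ0 : 0 < χ := by rw [hχ]; positivity
  have hℓ0 : 0 < ℓ := lt_of_lt_of_le (by positivity) hℓ
  have h1 : η * n ≤ (p * q * δ * χ) / 12 * ℓ := by
    have := mul_le_mul_of_nonneg_right hη2 hn.le
    have := mul_le_mul_of_nonneg_left hℓ (show 0 ≤ (p * q * δ * χ) / 12 by positivity)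
    linarith
  have e1 : 2 * n * (ℓ * (τ * n ^ 2) + η * n ^ 3) / (q * δ * ℓ) ≤ p * χ / 2 * n ^ 3 := by
    rw [div_le_iff₀ (by positivity)]
    have h2 := mul_le_mul_of_nonneg_left h1 (show 0 ≤ 2 * n ^ 3 by positivity)
    rw [hτ]
    linarith
  have e2 : η * n ^ 3 ≤ p * χ / 3 * n ^ 3 := mul_le_mul_of_nonneg_right hη3 (by positivity)
  have e3 : (2 * n * (ℓ * (τ * n ^ 2) + η * n ^ 3) / (q * δ * ℓ) + η * n ^ 3) / p / (δ * n) ≤
      μ / 8 * n ^ 2 := by
    rw [div_le_iff₀ (by positivity), div_le_iff₀ hp]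
    have h3 : 0 ≤ p * χ * n ^ 3 := by positivity
    rw [hχ] at e1 e2 h3
    linarith
  have := mul_le_mul_of_nonneg_left e3 hℓ0.le
  rw [hδ] at this ⊢
  linarith

/-- The arithmetic behind the final surplus. -/
lemma final_arith {n d c a g ℓ p q ε γ μ e0 lam M : ℝ} (hn : 0 < n) (hp : 0 < p) (hq : q = 1 - p)
    (hq0 : 0 < q) (hγ : γ = q * ε / 20) (hγ0 : 0 < γ) (ha0 : 0 ≤ a) (hM : M ≤ μ * n ^ 2)
    (he0 : e0 ≤ μ) (hμ : μ = p * γ ^ 2 / 2) (haK : a * g * p ≤ M + e0 * n ^ 2)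
    (hg1 : γ * n ≤ g) (hg2 : g ≤ 2 * (γ * n)) (hℓ0 : 0 ≤ ℓ) (hℓ : ℓ ≤ γ * n / 4)
    (hlam : lam * n ≤ γ * n) (hd : ε * n ≤ d)
    (hsur : q * (d - ℓ - a - g) - γ * n - 2 * ℓ - 2 * g - a + d ≤ c) : d + lam * n ≤ c := by
  have ha : a ≤ γ * n := by
    have h1 := mul_le_mul_of_nonneg_right he0 (sq_nonneg n)
    have h2 : a * (γ * n) * p ≤ a * g * p := by gcongr
    rw [hμ] at hM h1
    refine le_of_mul_le_mul_right (a := γ * n * p) ?_ (by positivity)
    linarith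
  have hqd := mul_le_mul_of_nonneg_left hd hq0.le
  have hq1 : q ≤ 1 := by linarith
  have hqrest := mul_le_mul_of_nonneg_right hq1 (show 0 ≤ ℓ + a + g by linarith [mul_pos hγ0 hn])
  have : q * ε * n = 20 * (γ * n) := by rw [hγ]; ring
  linarith

lemma floor_bounds {c : ℝ} {n : ℕ} (hc : 0 < c) (h : 1 / c ≤ (n : ℝ)) :
    c * n ≤ ((⌊c * (n : ℝ)⌋₊ + 1 : ℕ) : ℝ) ∧
      ((⌊c * (n : ℝ)⌋₊ + 1 : ℕ) : ℝ) ≤ 2 * (c * n) := by
  rw [div_le_iff₀ hc] at h
  have := Nat.lt_floor_add_one (c * (n : ℝ))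
  have := Nat.floor_le (show 0 ≤ c * (n : ℝ) by positivity)
  push_cast
  constructor <;> linarith

/-- Few vertices of any set are adjacent to much more than a share `p` of a given set. -/
lemma few_untypical (p η γ : ℝ) (hγ : 0 < γ) (hn : (0 : ℝ) < Fintype.card V)
    (hq : ∀ X Y : Finset V, |(((X ×ˢ Y).filter fun q => D q.1 q.2 ∨ D q.2 q.1).card : ℝ)
      - p * (X.card * Y.card)| ≤ η * (Fintype.card V : ℝ) ^ 2)
    (L : Finset V) (P : V → Prop) [DecidablePred P] :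
    ((L.filter fun v => p * (univ.filter P).card + γ * Fintype.card V <
      ((univ.filter fun x => P x ∧ (D v x ∨ D x v)).card : ℝ)).card : ℝ) ≤
      η * Fintype.card V / γ := by
  classical
  set n := Fintype.card V
  set X := L.filter fun v => p * (univ.filter P).card + γ * (n : ℝ) <
    ((univ.filter fun x => P x ∧ (D v x ∨ D x v)).card : ℝ)
  set J := univ.filter P
  have h1 := (abs_le.1 (hq X J)).2
  have e : ((X ×ˢ J).filter fun x => D x.1 x.2 ∨ D x.2 x.1).card =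
      ∑ v ∈ X, (univ.filter fun x => P x ∧ (D v x ∨ D x v)).card := by
    simp only [card_filter]
    rw [sum_product]
    refine sum_congr rfl fun v _ => ?_
    simp only [J, sum_filter, ite_and]
  rw [e, Nat.cast_sum] at h1
  have h2 := card_nsmul_le_sum X
    (fun v => ((univ.filter fun x => P x ∧ (D v x ∨ D x v)).card : ℝ))
    (p * J.card + γ * n) (fun v hv => (mem_filter.1 hv).2.le)
  rw [nsmul_eq_mul] at h2
  rw [le_div_iff₀ hγ]
  exact le_of_mul_le_mul_right (by linarith : (X.card : ℝ) * γ * n ≤ η * n * n) hn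

/-- Choice of the parameters. -/
lemma exists_params (p ε : ℝ) (hp : 0 < p) (hp1 : p < 1) (hε : 0 < ε) (hε1 : ε ≤ 1) :
    ∃ γ μ δ χ τ e0 η : ℝ, γ = (1 - p) * ε / 20 ∧ 0 < γ ∧ μ = p * γ ^ 2 / 2 ∧ 0 < μ ∧
      δ = μ / 8 ∧ 0 < δ ∧ χ = μ * δ / 8 ∧ τ = p * (1 - p) * δ * χ / 6 ∧ 0 < τ ∧ τ ≤ γ ∧
      e0 = p * (τ / 8) * τ / 8 ∧ 0 < e0 ∧ e0 ≤ μ ∧ 0 < η ∧
      η * (8 / e0 + 1) ≤ e0 / 2 ∧ η ≤ τ / 8 * (p * (1 - p) * δ * χ) / 12 ∧ η ≤ p * χ / 3 ∧
      η * (1 / γ + 2) ≤ τ / 8 * γ / 4 := by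
  set q := 1 - p with hqdef
  have hq0 : 0 < q := sub_pos.2 hp1
  obtain ⟨γ, hγ⟩ : ∃ γ, γ = q * ε / 20 := ⟨_, rfl⟩
  have hγ0 : 0 < γ := by rw [hγ]; positivity
  have hγ1 : γ ≤ 1 := by
    have : q * ε ≤ 1 * 1 := mul_le_mul (by linarith) hε1 hε.le zero_le_one
    linarith
  obtain ⟨μ, hμ⟩ : ∃ μ, μ = p * γ ^ 2 / 2 := ⟨_, rfl⟩
  have hμ0 : 0 < μ := by rw [hμ]; positivity
  have hμγ : μ ≤ γ := by
    have : p * γ ^ 2 ≤ 1 * γ := mul_le_mul hp1.le (by nlinarith) (sq_nonneg _) zero_le_one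
    linarith
  obtain ⟨δ, hδ⟩ : ∃ δ, δ = μ / 8 := ⟨_, rfl⟩
  have hδ0 : 0 < δ := by rw [hδ]; positivity
  obtain ⟨χ, hχ⟩ : ∃ χ, χ = μ * δ / 8 := ⟨_, rfl⟩
  have hχ0 : 0 < χ := by rw [hχ]; positivity
  have hχ1 : χ ≤ 1 := by
    have : μ * δ ≤ 1 * 1 := mul_le_mul (by linarith) (by linarith) hδ0.le zero_le_one
    linarith
  obtain ⟨τ, hτ⟩ : ∃ τ, τ = p * q * δ * χ / 6 := ⟨_, rfl⟩
  have hτ0 : 0 < τ := by rw [hτ]; positivity
  have hτδ : τ ≤ δ := by
    have h1 : p * q ≤ 1 * 1 := mul_le_mul hp1.le (by linarith) hq0.le zero_le_one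
    have h2 : p * q * δ * χ ≤ 1 * δ * 1 :=
      mul_le_mul (mul_le_mul_of_nonneg_right (by linarith) hδ0.le) hχ1 hχ0.le (by positivity)
    linarith
  obtain ⟨e0, he⟩ : ∃ e0, e0 = p * (τ / 8) * τ / 8 := ⟨_, rfl⟩
  have he0 : 0 < e0 := by rw [he]; positivity
  have heμ : e0 ≤ μ := by
    have h1 : p * (τ / 8) * τ ≤ 1 * 1 * τ :=
      mul_le_mul_of_nonneg_right (mul_le_mul hp1.le (by linarith) (by positivity) zero_le_one)
        hτ0.le
    linarith
  refine ⟨γ, μ, δ, χ, τ, e0, min (e0 / 2 / (8 / e0 + 1))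
    (min (τ / 8 * (p * q * δ * χ) / 12) (min (p * χ / 3) (τ / 8 * γ / 4 / (1 / γ + 2)))),
    hγ, hγ0, hμ, hμ0, hδ, hδ0, hχ, hτ, hτ0, by linarith, he, he0, heμ,
    lt_min (by positivity) (lt_min (by positivity) (lt_min (by positivity) (by positivity))),
    ?_, (min_le_right _ _).trans (min_le_left _ _),
    (min_le_right _ _).trans ((min_le_right _ _).trans (min_le_left _ _)), ?_⟩
  · exact (le_div_iff₀ (by positivity)).1 (min_le_left _ _)
  · exact (le_div_iff₀ (by positivity)).1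
      ((min_le_right _ _).trans ((min_le_right _ _).trans (min_le_right _ _)))

/-- Some vertex of `L` has few forced arcs and no untypical tail. -/
lemma exists_good (p η γ μ : ℝ) (hγ : 0 < γ) (hη : 0 ≤ η) (hμ : 0 < μ)
    (hn : (0 : ℝ) < Fintype.card V)
    (hq : ∀ X Y : Finset V, |(((X ×ˢ Y).filter fun q => D q.1 q.2 ∨ D q.2 q.1).card : ℝ)
      - p * (X.card * Y.card)| ≤ η * (Fintype.card V : ℝ) ^ 2)
    (L : Finset V) (g : ℕ) (hg : γ * Fintype.card V ≤ g) (hL : 0 < L.card)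
    (hcount : (1 / γ + 2) * (η * Fintype.card V / γ) ≤ (L.card : ℝ) / 4)
    (hsum : ∑ v ∈ L, ((mPairs D pos v).card : ℝ) ≤
      3 / 8 * μ * L.card * (Fintype.card V : ℝ) ^ 2) :
    ∃ v ∈ L, ((mPairs D pos v).card : ℝ) ≤ μ * (Fintype.card V : ℝ) ^ 2 ∧
      ∀ i ≤ Fintype.card V / g + 1,
        ((univ.filter fun x => i * g ≤ pos x ∧ (D v x ∨ D x v)).card : ℝ) ≤
          p * (univ.filter fun x => i * g ≤ pos x).card + γ * Fintype.card V := by
  classical
  set n := Fintype.card V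
  set I := range (n / g + 1 + 1)
  let bad : ℕ → Finset V := fun i => L.filter fun v =>
    p * (univ.filter fun x => i * g ≤ pos x).card + γ * n <
      ((univ.filter fun x => i * g ≤ pos x ∧ (D v x ∨ D x v)).card : ℝ)
  set M := L.filter fun v => μ * (n : ℝ) ^ 2 < ((mPairs D pos v).card : ℝ)
  have hMc : (M.card : ℝ) ≤ 3 / 8 * L.card := by
    have h1 := card_nsmul_le_sum M (fun v => ((mPairs D pos v).card : ℝ)) (μ * (n : ℝ) ^ 2)
      (fun v hv => (mem_filter.1 hv).2.le)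
    rw [nsmul_eq_mul] at h1
    have h2 : ∑ v ∈ M, ((mPairs D pos v).card : ℝ) ≤ ∑ v ∈ L, ((mPairs D pos v).card : ℝ) :=
      sum_le_sum_of_subset_of_nonneg (filter_subset _ _) fun _ _ _ => Nat.cast_nonneg _
    exact le_of_mul_le_mul_right (by linarith) (show 0 < μ * (n : ℝ) ^ 2 by positivity)
  have hgpos : (0 : ℝ) < g := lt_of_lt_of_le (by positivity) hg
  have hbads : ((I.biUnion bad).card : ℝ) ≤ (L.card : ℝ) / 4 := by
    refine le_trans (Nat.cast_le.2 card_biUnion_le) ?_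
    rw [Nat.cast_sum]
    refine (sum_le_sum fun i _ =>
      few_untypical p η γ hγ hn hq L (fun x => i * g ≤ pos x)).trans ?_
    rw [sum_const, nsmul_eq_mul, card_range]
    refine le_trans (mul_le_mul_of_nonneg_right ?_ (by positivity)) hcount
    have := Nat.cast_div_le (m := n) (n := g) (α := ℝ)
    have : (n : ℝ) / g ≤ 1 / γ := by
      rw [div_le_div_iff₀ hgpos hγ]; linarith
    push_cast
    linarith
  obtain ⟨v, hv⟩ : ∃ v, v ∈ L \ (M ∪ I.biUnion bad) := by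
    apply Finset.Nonempty.exists_mem
    rw [sdiff_nonempty]
    intro hsub
    have h1 := (Nat.cast_le (α := ℝ)).2 ((card_le_card hsub).trans (card_union_le _ _))
    rw [Nat.cast_add] at h1
    have : (0 : ℝ) < L.card := by exact_mod_cast hL
    linarith
  rw [mem_sdiff, mem_union, not_or] at hv
  obtain ⟨hvL, hvM, hvb⟩ := hv
  simp only [M, mem_filter, hvL, true_and, not_lt] at hvM
  simp only [mem_biUnion, not_exists, not_and] at hvb
  refine ⟨v, hvL, hvM, fun i hi => ?_⟩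
  have := hvb i (mem_range.2 (Nat.lt_succ_of_le hi))
  simp only [bad, mem_filter, hvL, true_and, not_lt] at this
  exact this

theorem result :
    ∀ (p ε : ℝ), 0 < p → p < 1 → 0 < ε → ∃ η σ : ℝ, ∃ n₀ : ℕ, 0 < η ∧ 0 < σ ∧
      ∀ (V : Type) [Fintype V] [DecidableEq V] (D : V → V → Prop) [DecidableRel D],
        n₀ ≤ Fintype.card V → (∀ u w, D u w → ¬ D w u) →
        (∀ X Y : Finset V, |(((X ×ˢ Y).filter fun q => D q.1 q.2 ∨ D q.2 q.1).card : ℝ)
          - p * (X.card * Y.card)| ≤ η * (Fintype.card V : ℝ) ^ 2) →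
        (∀ v, ε * Fintype.card V ≤ (univ.filter fun u => D v u).card) →
        ∃ v, ((univ.filter fun u => D v u).card : ℝ) + σ * Fintype.card V ≤
          (univ.filter fun w => w ≠ v ∧ ¬ D v w ∧ ∃ u, D v u ∧ D u w).card := by
  intro p ε₀ hp hp1 hε₀
  obtain ⟨γ, μ, δ, χ, τ, e0, η, hγdef, hγ, hμdef, hμ, hδdef, hδ, hχdef, hτdef, hτ, hτγ, he0def,
    he0, he0μ, hη, hη1, hη2, hη3, hη4⟩ :=
    exists_params p (min ε₀ 1) hp hp1 (lt_min hε₀ one_pos) (min_le_right _ _)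
  obtain ⟨n₀, hn₀⟩ := exists_nat_ge (1 / (τ / 8) + 1 / (e0 / 8) + 1 / γ + 1)
  refine ⟨η, τ / 8, n₀, hη, by positivity, ?_⟩
  intro V _ _ D _ hn anti hquasi hdeg
  classical
  set n := Fintype.card V with hndef
  have hnR : 1 / (τ / 8) + 1 / (e0 / 8) + 1 / γ + 1 ≤ (n : ℝ) := hn₀.trans (by exact_mod_cast hn)
  have i1 : 0 < 1 / (τ / 8) := by positivity
  have i2 : 0 < 1 / (e0 / 8) := by positivity
  have i3 : 0 < 1 / γ := by positivity
  have hnpos : (0 : ℝ) < n := by linarith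
  obtain ⟨hℓ1, hℓ2⟩ := floor_bounds (n := n) (show 0 < τ / 8 by positivity) (by linarith)
  obtain ⟨hw1, hw2⟩ := floor_bounds (n := n) (show 0 < e0 / 8 by positivity) (by linarith)
  obtain ⟨hg1, hg2⟩ := floor_bounds (n := n) hγ (by linarith)
  set ℓ := ⌊τ / 8 * (n : ℝ)⌋₊ + 1 with hℓdef
  set w := ⌊e0 / 8 * (n : ℝ)⌋₊ + 1 with hwdef
  set g := ⌊γ * (n : ℝ)⌋₊ + 1 with hgdef
  obtain ⟨pos, hlt, inj, hbest⟩ := exists_median D
  have hm : IsMedian D pos := ⟨hlt, inj, hbest⟩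
  set L := univ.filter fun v => n - ℓ ≤ pos v with hLdef
  have hτn : τ * (n : ℝ) ≤ γ * n := mul_le_mul_of_nonneg_right hτγ hnpos.le
  have hℓn : ℓ ≤ n := by
    have h1 : γ ≤ 1 := by
      have : (1 - p) * min ε₀ 1 ≤ 1 * 1 :=
        mul_le_mul (by linarith) (min_le_right _ _) (lt_min hε₀ one_pos).le zero_le_one
      linarith
    have h2 := mul_le_mul_of_nonneg_right h1 hnpos.le
    have : (ℓ : ℝ) ≤ n := by linarith
    exact_mod_cast this
  have hLcard : L.card = ℓ := by rw [hLdef, card_tail pos hlt inj]; omega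
  have hLv : ∀ v ∈ L, n ≤ pos v + ℓ := fun v hv => by
    simp only [hLdef, mem_filter, mem_univ, true_and] at hv; omega
  have htri : ∀ X Y : Finset V,
      |(((X ×ˢ Y).filter fun q => (D q.1 q.2 ∨ D q.2 q.1) ∧ pos q.1 < pos q.2).card : ℝ)
        - p * ((X ×ˢ Y).filter fun q => pos q.1 < pos q.2).card| ≤ e0 * (n : ℝ) ^ 2 :=
    fun X Y => by
      have h1 := tri_bound (fun x y => D x y ∨ D y x) hp.le hp1.le hη.le hquasi pos hlt inj w
        (Nat.succ_pos _) X Y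
      have h2 := tri_arith hnpos hw1 hw2 he0 hη.le hη1
      exact h1.trans h2
  by_contra hfail
  push Not at hfail
  have hslack : ∀ v ∈ L, ((slackPairs D pos v).card : ℝ) ≤ τ * (n : ℝ) ^ 2 := by
    intro v hv
    refine (slack_le anti hm v ℓ ℓ (τ / 8 * n) (e0 * (n : ℝ) ^ 2) p hp hp1.le (by positivity)
      (by positivity) (Nat.succ_pos _) (hLv v hv) htri (hfail v)).trans ?_
    rw [he0def]
    exact slack_arith hnpos hp hτ hℓ1 hℓ2
  have hM := few_forced anti L p η δ δ (τ * (n : ℝ) ^ 2) hp hp1 hη.le hδ hδ (by positivity)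
    (card_pos.1 (by rw [hLcard]; exact Nat.succ_pos _)) hquasi hslack
  rw [hLcard, ← hndef] at hM
  have hM' := hM.trans (forced_arith hnpos hp (sub_pos.2 hp1) hμ hδdef hχdef hτdef hℓ1
    (by positivity) hη2 hη3)
  have hcount : (1 / γ + 2) * (η * (n : ℝ) / γ) ≤ (L.card : ℝ) / 4 := by
    rw [hLcard, mul_div_assoc', div_le_iff₀ hγ]
    have h1 := mul_le_mul_of_nonneg_right hη4 hnpos.le
    have h2 := mul_le_mul_of_nonneg_right hℓ1 hγ.le
    linarith
  rw [← hLcard] at hM'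
  obtain ⟨v, hvL, hvM, hvb⟩ := exists_good p η γ μ hγ hη.le hμ hnpos hquasi L g hg1
    (by rw [hLcard]; exact Nat.succ_pos _) hcount hM'
  obtain ⟨a, ha0, haK, hsur⟩ := surplus anti hm v ℓ g g (e0 * (n : ℝ) ^ 2) p (γ * n) hp hp1.le
    (Nat.succ_pos _) (Nat.succ_pos _) (hLv v hvL) htri hvb
  have hlamn : τ / 8 * (n : ℝ) ≤ γ * n := by linarith [mul_pos hτ hnpos]
  have := final_arith hnpos hp rfl (sub_pos.2 hp1) hγdef hγ ha0 hvM he0μ hμdef haK hg1 hg2
    (Nat.cast_nonneg ℓ) (by linarith) hlamn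
    ((mul_le_mul_of_nonneg_right (min_le_left ε₀ 1) hnpos.le).trans (hdeg v)) hsur
  exact absurd this (not_le.2 (hfail v))

end Vale.Agent.Results.P038.QuasiRandomOrientations
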